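import Vale.Agent.P216.H804.D6
import Vale.Agent.P216.GM.TW
import Vale.Agent.P216.B609.FinB
import Vale.Agent.P216.B609.Base0
import Vale.Agent.P216.B609.Sheet

/-!
# P216-C3: finiteness and bounded finite bars over every field (characteristic `2` included)

`LevelBoundK8`, `BaseFinK8`, `StableBarsK8` are the versions of `LevelBound`, `BaseFin`, `StableBars`
for an arbitrary coefficient field.
-/

open Set Topology
open Module (finrank)
open Vale.Agent.P216.Low
open Vale.Agent.P216.H288 Vale.Agent.P216.H494 Vale.Agent.P216.L250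

namespace Vale.Agent.P216.GSys

open Vale.Agent.P265.AS (hh hh_triple hh_self)
open H804 B609

variable {Λ : Type} [PseudoMetricSpace Λ] (S : GSys Λ)

/-- The contribution of every critical level to the cohomology over any field is at most `C`. -/
def LevelBoundK8 : Prop := ∃ C : ℕ, ∀ (k : Type) [Field k], ∀ c : ℝ, 0 < c →
  c ∈ AS.Crit S.ℓ → ∃ e₀ > 0, ∀ s t, c - e₀ < s → s < c → c < t → t < c + e₀ → ∀ m : ℕ,
    ∑ q ∈ Finset.range m, hh S.τ (-1 : k) (S.X t) (S.X s) q ≤ (C : Cardinal)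

theorem LevelBoundK8.levelBound {S : GSys Λ} (h : S.LevelBoundK8) : S.LevelBound := by
  obtain ⟨C, h⟩ := h
  exact ⟨C, fun p _ _ => h (ZMod p)⟩

/-- The images of the restriction maps are stable after a shift by `B`. -/
def StableBarsK8 (k : Type) [Field k] (B : ℝ) : Prop := ∀ s t : ℝ, 0 < s →
  ∀ (h : s ≤ s + B) (h' : s + B ≤ t) (n : ℕ),
    LinearMap.range (S.rV k h n) ≤ LinearMap.range (S.rV k (h.trans h') n)

/-- Finiteness at a low level. -/
def BaseFinK8 : Prop := ∃ s₀ : ℝ, 0 < s₀ ∧ (∀ i, s₀ < S.ℓ i) ∧ ∀ (k : Type) [Field k],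
  (∀ n, Module.Finite k (S.V k s₀ n)) ∧ ∃ N, ∀ n ≥ N, Subsingleton (S.V k s₀ n)

/-- Between regular levels at distance at most `L` the total relative cohomology is bounded
uniformly in the field. -/
theorem exists_sum_hh_leK8 (hL : S.LevelBoundK8) (L : ℝ) : ∃ K : ℕ, ∀ (k : Type) [Field k],
    ∀ s t : ℝ, 0 < s → s ≤ t → t ≤ s + L → s ∉ AS.Crit S.ℓ → t ∉ AS.Crit S.ℓ → ∀ m : ℕ,
    ∑ q ∈ Finset.range m, hh S.τ (-1 : k) (S.X t) (S.X s) q ≤ (K : Cardinal) := by
  have := S.fin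
  obtain ⟨inst⟩ := nonempty_fintype S.ι
  obtain ⟨C, hC⟩ := hL
  refine ⟨(∑ i, (⌊L / S.ℓ i⌋₊ + 1)) * C, fun k _ s t hs hst htL hsc htc m => ?_⟩
  obtain ⟨F, hF, hFc⟩ := exists_finset_crit S.ℓ_pos (s := s) (t := t) (L := L) (by linarith)
  refine (S.sum_hh_le (hC k) hs hsc m F.card F rfl t hst htc hF).trans ?_
  exact_mod_cast Nat.mul_le_mul_right C hFc

/-- Finiteness at all regular levels. -/
theorem finite_of_levelBoundK8 (hL : S.LevelBoundK8) (h0 : S.BaseFinK8) (k : Type) [Field k]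
    (s : ℝ) (hs : 0 < s) (hsc : s ∉ AS.Crit S.ℓ) :
    (∀ n, Module.Finite k (S.V k s n)) ∧ ∃ N, ∀ n ≥ N, Subsingleton (S.V k s n) := by
  obtain ⟨s₀, hs₀, hℓ, h0⟩ := h0
  obtain ⟨h1, N, hN⟩ := h0 k
  rcases le_total s s₀ with h | h
  · have hb := fun n => S.res_bijective (k := k) hs h
      (fun a ha => S.not_crit_of_lt' hℓ ha.2) (S.mono _ _ h) n
    refine ⟨fun n => ?_, N, fun n hn => ?_⟩
    · have := h1 n
      exact Module.Finite.of_surjective _ (hb n).2
    · have := hN n hn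
      exact (hb n).2.subsingleton
  · obtain ⟨K, hK⟩ := S.exists_sum_hh_leK8 hL (s - s₀)
    have hsum := hK k s₀ s hs₀ h (by linarith) (S.not_crit_of_lt' hℓ le_rfl) hsc
    have hle : ∀ n, Module.rank k (S.V k s n) ≤
        Module.rank k (S.V k s₀ n) + hh S.τ (-1 : k) (S.X s) (S.X s₀) n := by
      intro n
      rw [H804.rank_Ha, H804.rank_Ha]
      exact hh_triple (empty_subset _) (S.mono _ _ h) (S.inv_X s₀) _ n
    obtain ⟨N', hN'⟩ := eventually_zero hsum
    refine ⟨fun n => ?_, max N N', fun n hn => ?_⟩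
    · rw [← Module.rank_lt_aleph0_iff]
      refine (hle n).trans_lt (Cardinal.add_lt_aleph0 ?_ ?_)
      · have := h1 n
        exact Module.rank_lt_aleph0 _ _
      · refine lt_of_le_of_lt ?_ (Cardinal.natCast_lt_aleph0 (n := K))
        refine le_trans ?_ (hsum (n + 1))
        exact Finset.single_le_sum (f := fun n => hh S.τ (-1 : k) (S.X s) (S.X s₀) n)
          (fun _ _ => zero_le) (Finset.self_mem_range_succ n)
    · have h2 := hle n
      have := hN n ((le_max_left _ _).trans hn)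
      have h3 : Module.rank k (S.V k s₀ n) = 0 := rank_zero_iff.2 this
      rw [hN' n ((le_max_right _ _).trans hn), add_zero, h3] at h2
      exact rank_zero_iff.1 (le_antisymm h2 zero_le)

/-- The cokernels of the restriction maps over an interval of bounded length are bounded,
uniformly in the field. -/
theorem coker_boundedK8 (hL : S.LevelBoundK8) (h0 : S.BaseFinK8) (L : ℝ) : ∃ K : ℕ,
    ∀ (k : Type) [Field k], ∀ s : ℝ, 0 < s → s ∉ AS.Crit S.ℓ → ∀ (t : ℝ) (h : s ≤ t),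
      t ≤ s + L → t ∉ AS.Crit S.ℓ → ∀ m : ℕ,
        ∑ n ∈ Finset.range m, (finrank k (S.V k s n) -
          finrank k (LinearMap.range (S.rV k h n))) ≤ K := by
  obtain ⟨K, hK⟩ := S.exists_sum_hh_leK8 hL L
  refine ⟨K, fun k _ s hs hsc t hst htL htc m => ?_⟩
  have hsum := hK k s t hs hst htL hsc htc (m + 1)
  have hfin := (S.finite_of_levelBoundK8 hL h0 k s hs hsc).1
  have hle : ∀ n, ((finrank k (S.V k s n) -
      finrank k (LinearMap.range (S.rV k hst n)) : ℕ) : Cardinal) ≤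
      hh S.τ (-1 : k) (S.X t) (S.X s) (n + 1) := by
    intro n
    have := hfin n
    obtain ⟨δ, hδ⟩ := exists_del (k := k) (χ := fun _ : Unit => (-1 : k))
      (S.mono _ _ hst) (S.inv_τ s) n
    have h1 := rank_quot_le hδ
    rw [AS.rank_Hr] at h1
    refine le_trans ?_ h1
    have h5 := Submodule.finrank_quotient_add_finrank (LinearMap.range (S.rV k hst n))
    calc _ ≤ ((finrank k (S.V k s n ⧸ LinearMap.range (S.rV k hst n)) : ℕ) : Cardinal) := by
          exact_mod_cast (by omega)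
      _ = _ := Module.finrank_eq_rank _ _
  have h1 : ((∑ n ∈ Finset.range m, (finrank k (S.V k s n) -
      finrank k (LinearMap.range (S.rV k hst n))) : ℕ) : Cardinal) ≤ K := by
    push_cast
    refine le_trans (Finset.sum_le_sum fun n _ => hle n) ?_
    rw [Finset.sum_range_succ'] at hsum
    exact le_self_add.trans hsum
  exact_mod_cast h1

/-- The dimension of the finite bars is bounded, uniformly in the level and in the field. -/
theorem bars_of_levelBoundK8 (hL : S.LevelBoundK8) {B : ℝ} (hB0 : 0 ≤ B) (h0 : S.BaseFinK8) :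
    ∃ K : ℕ, ∀ (k : Type) [Field k], S.StableBarsK8 k B → ∀ s : ℝ, 0 < s →
      s ∉ AS.Crit S.ℓ → ∀ (t : ℝ) (h : s ≤ t), s + B ≤ t → ∀ m : ℕ,
        ∑ n ∈ Finset.range m, (finrank k (S.V k s n) -
          finrank k (LinearMap.range (S.rV k h n))) ≤ K := by
  obtain ⟨K, hK⟩ := S.coker_boundedK8 hL h0 (B + 1)
  refine ⟨K, fun k _ hB s hs hsc t hst hBt m => ?_⟩
  obtain ⟨T, hT, hTc⟩ := S.exists_reg_level (a := s + B) (b := s + (B + 1)) (by linarith)
  have hsT : s ≤ T := by linarith [hT.1]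
  refine (Finset.sum_le_sum fun n _ => ?_).trans (hK k s hs hsc T hsT hT.2 hTc m)
  have hfin := (S.finite_of_levelBoundK8 hL h0 k s hs hsc).1 n
  have h2 : LinearMap.range (S.rV k hsT n) ≤ LinearMap.range (S.rV k hst n) :=
    (S.range_rV_le (k := k) (show s ≤ s + B by linarith) hT.1 n).trans
      (hB s t hs (by linarith) hBt n)
  have h4 := Submodule.finrank_mono h2
  omega

end Vale.Agent.P216.GSys

namespace Vale.Agent.P216.GM

open Vale.Agent.P265.AS Vale.Agent.P216.H41 L250 LS H288 H494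

variable {M : Type} [MetricSpace M]

/-- **LEVELBOUND for every coefficient field.** -/
theorem levelBoundK8 [CompactSpace M] (hF1 : F1 M) (hLOC : LOC M) (hTW : TW M) (H : Hol M)
    (G : GeoList M) (hD : DescentStmt H G) : (mkGSys H G hD).LevelBoundK8 := by
  classical
  obtain ⟨N, hN⟩ := hLOC G
  refine ⟨(Nat.card G.ι + Nat.card G.ι) * N, fun k _ c hc _ => ?_⟩
  obtain ⟨R₁, hK₁, hU₁, hd₁, hc₁⟩ := exists_orbits_card G (e := 1) (a := c) (Or.inl rfl) hc
  obtain ⟨R₂, hK₂, hU₂, hd₂, hc₂⟩ := exists_orbits_card G (e := -1) (a := c) (Or.inr rfl) hc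
  have hdis := disjoint_KK (G := G) hc
  have hD' : ∀ g : LM M, ∃ D : ℕ → ℕ, (g ∈ R₁ ∪ R₂ → Tot D N ∧ LR (XL M) c (orb g) D) := by
    intro g
    by_cases hg : g ∈ R₁ ∪ R₂
    · rcases Finset.mem_union.1 hg with h | h
      · obtain ⟨D, hD⟩ := hN 1 c (Or.inl rfl) hc g (hK₁ h)
        exact ⟨D, fun _ => hD⟩
      · obtain ⟨D, hD⟩ := hN (-1) c (Or.inr rfl) hc g (hK₂ h)
        exact ⟨D, fun _ => hD⟩
    · exact ⟨0, fun h => absurd h hg⟩
  choose D hD' using hD'
  obtain ⟨e₀, he₀, h⟩ := hF1 H G c hc (R₁ ∪ R₂) (by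
      rw [Finset.coe_union]
      exact union_subset_union hK₁ hK₂) (by
      rw [Finset.set_biUnion_union, ← hU₁, ← hU₂]) (by
      intro g hg g' hg' hne
      rcases Finset.mem_union.1 hg with h1 | h1 <;> rcases Finset.mem_union.1 hg' with h2 | h2
      · exact hd₁ g h1 g' h2 hne
      · exact hdis.mono (orb_subset_KK (hK₁ h1)) (orb_subset_KK (hK₂ h2))
      · exact hdis.symm.mono (orb_subset_KK (hK₂ h1)) (orb_subset_KK (hK₁ h2))
      · exact hd₂ g h1 g' h2 hne) D (by
      intro g hg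
      rcases Finset.mem_union.1 hg with h1 | h1
      · exact hTW H G 1 c (Or.inl rfl) hc g (hK₁ h1) _ (hD' g hg).2
      · exact hTW H G (-1) c (Or.inr rfl) hc g (hK₂ h1) _ (hD' g hg).2)
  refine ⟨e₀, he₀, fun s t h1 h2 h3 h4 m => ?_⟩
  calc ∑ q ∈ Finset.range m, hh deckC (-1 : k) (XT H t) (XT H s) q
      ≤ ∑ q ∈ Finset.range m, ((∑ g ∈ R₁ ∪ R₂, D g q : ℕ) : Cardinal) :=
        Finset.sum_le_sum fun q _ => h s t h1 h2 h3 h4 k q
    _ = ((∑ g ∈ R₁ ∪ R₂, ∑ q ∈ Finset.range m, D g q : ℕ) : Cardinal) := by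
        rw [← Nat.cast_sum, Finset.sum_comm]
    _ ≤ (((Nat.card G.ι + Nat.card G.ι) * N : ℕ) : Cardinal) := by
        have h5 : ∑ g ∈ R₁ ∪ R₂, ∑ q ∈ Finset.range m, D g q ≤ ∑ _g ∈ R₁ ∪ R₂, N :=
          Finset.sum_le_sum fun g hg => (hD' g hg).1 m
        rw [Finset.sum_const, smul_eq_mul] at h5
        have h6 := (Finset.card_union_le R₁ R₂).trans (add_le_add hc₁ hc₂)
        exact_mod_cast h5.trans (Nat.mul_le_mul_right N h6)

end Vale.Agent.P216.GM

namespace Vale.Agent.P216.B609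

section

variable {M : Type} [MetricSpace M] [CompactSpace M]

/-- **BASE0 for every coefficient field.** -/
theorem baseFinK8 (G : GeoList M) (hD : DescentStmt (Hol.triv : Hol M) G) {n : ℕ}
    (e : M ≃ₜ Metric.sphere (0 : EuclideanSpace ℝ (Fin (n + 1))) 1) :
    (mkGSys Hol.triv G hD).BaseFinK8 := by
  obtain ⟨s₀, h0, h1, h⟩ := base0 G hD e
  refine ⟨s₀, h0, h1, fun k _ => ⟨fun q => (h k q).1, n + 1, fun q hq => ?_⟩⟩
  exact (h k q).2 (by omega) (by omega)

/-- Everything at once, for a manifold homeomorphic to a sphere. -/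
theorem levelBoundK8 {ρ : ℝ} (hρ : 0 < ρ) (hs : LS.UniqSeg M ρ) (hLOC : GM.LOC M) (G : GeoList M)
    (hD : DescentStmt (Hol.triv : Hol M) G) : (mkGSys Hol.triv G hD).LevelBoundK8 :=
  GM.levelBoundK8 (GM.f1 hρ hs) hLOC GM.tw Hol.triv G hD

end

/-! ### The same over the sublevels of the free loop space -/

section

open B64 GM

variable {M : Type} [MetricSpace M] [CompactSpace M] (G : GeoList M)
  (hD : DescentStmt (Hol.triv : Hol M) G)

/-- finiteness -/
theorem HU_finite8 (hL : (mkGSys Hol.triv G hD).LevelBoundK8) (h0 : (mkGSys Hol.triv G hD).BaseFinK8)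
    (k : Type) [Field k] (s : ℝ) (hs : 0 < s) (hsc : s ∉ AS.Crit G.ℓ) :
    (∀ n, Module.Finite k (HU k (XL M s) n)) ∧ ∃ N, ∀ n ≥ N, Subsingleton (HU k (XL M s) n) := by
  obtain ⟨h1, N, h2⟩ := (mkGSys Hol.triv G hD).finite_of_levelBoundK8 hL h0 k s hs hsc
  refine ⟨fun n => ?_, N, fun n hn => ?_⟩
  · have := h1 n
    exact Module.Finite.equiv (phi G hD k s n)
  · have := h2 n hn
    exact (phi G hD k s n).symm.injective.subsingleton

include hD in
/-- no critical level: the restriction is bijective -/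
theorem HU_reg8 (k : Type) [Field k] {s t : ℝ} (hs : 0 < s) (h : s ≤ t)
    (hc : ∀ a ∈ Icc s t, a ∉ AS.Crit G.ℓ) (n : ℕ) :
    Function.Bijective (hres k (XL_mono h : XL M s ⊆ XL M t) n) := by
  have hb := (mkGSys Hol.triv G hD).res_bijective (k := k) hs h hc ((mkGSys Hol.triv G hD).mono s t h) n
  have h1 : ∀ x, hres k (XL_mono h : XL M s ⊆ XL M t) n x = phi G hD k s n
      (AS.res ((mkGSys Hol.triv G hD).mono s t h) n ((phi G hD k t n).symm x)) := fun x => by
    rw [phi_res G hD h n, LinearEquiv.apply_symm_apply]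
  have h2 : (hres k (XL_mono h : XL M s ⊆ XL M t) n : HU k (XL M t) n → HU k (XL M s) n) =
      (phi G hD k s n) ∘ (AS.res ((mkGSys Hol.triv G hD).mono s t h) n) ∘ (phi G hD k t n).symm :=
    funext h1
  rw [h2]
  exact (phi G hD k s n).bijective.comp (hb.comp (phi G hD k t n).symm.bijective)

theorem finrank_range_phi8 (k : Type) [Field k] {s t : ℝ} (h : s ≤ t) (n : ℕ) :
    finrank k (LinearMap.range (hres k (XL_mono h : XL M s ⊆ XL M t) n)) =
      finrank k (LinearMap.range ((mkGSys Hol.triv G hD).rV k h n)) := by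
  have h1 : LinearMap.range (hres k (XL_mono h : XL M s ⊆ XL M t) n) =
      (LinearMap.range ((mkGSys Hol.triv G hD).rV k h n)).map
        (phi G hD k s n : _ →ₗ[k] HU k (XL M s) n) := by
    ext y
    constructor
    · rintro ⟨x, rfl⟩
      refine ⟨_, ⟨(phi G hD k t n).symm x, rfl⟩, ?_⟩
      have := phi_res G hD h n ((phi G hD k t n).symm x)
      rw [LinearEquiv.apply_symm_apply] at this
      exact this
    · rintro ⟨_, ⟨x, rfl⟩, rfl⟩
      exact ⟨phi G hD k t n x, (phi_res G hD h n x).symm⟩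
  rw [h1]
  exact LinearEquiv.finrank_map_eq _ _

/-- bounded finite bars; `StableBarsK8` in the language of `HU` -/
theorem HU_bars8 (hL : (mkGSys Hol.triv G hD).LevelBoundK8)
    (h0 : (mkGSys Hol.triv G hD).BaseFinK8) {B : ℝ} (hB : 0 ≤ B) :
    ∃ K : ℕ, ∀ (k : Type) [Field k], (∀ s t : ℝ, 0 < s → ∀ (h : s ≤ s + B) (h' : s + B ≤ t) (n : ℕ),
      LinearMap.range (hres k (XL_mono h : XL M s ⊆ XL M (s + B)) n) ≤
        LinearMap.range (hres k (XL_mono (h.trans h') : XL M s ⊆ XL M t) n)) →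
      ∀ s : ℝ, 0 < s → s ∉ AS.Crit G.ℓ → ∀ (t : ℝ) (h : s ≤ t), s + B ≤ t → ∀ m : ℕ,
        ∑ n ∈ Finset.range m, (finrank k (HU k (XL M s) n) -
          finrank k (LinearMap.range (hres k (XL_mono h : XL M s ⊆ XL M t) n))) ≤ K := by
  obtain ⟨K, hK⟩ := (mkGSys Hol.triv G hD).bars_of_levelBoundK8 hL hB h0
  refine ⟨K, fun k _ hst s hs hsc t h hBt m => ?_⟩
  have hS : (mkGSys Hol.triv G hD).StableBarsK8 k B := by
    rintro s t hs h h' n _ ⟨x, rfl⟩
    obtain ⟨y, hy⟩ := hst s t hs h h' n ⟨phi G hD k (s + B) n x, rfl⟩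
    refine ⟨(phi G hD k t n).symm y, (phi G hD k s n).injective ?_⟩
    have e1 := phi_res G hD (h.trans h') n ((phi G hD k t n).symm y)
    have e2 := phi_res G hD h n x
    rw [LinearEquiv.apply_symm_apply] at e1
    exact e1.trans (hy.trans e2.symm)
  have h1 := hK k hS s hs hsc t h hBt m
  refine le_of_eq_of_le (Finset.sum_congr rfl fun n _ => ?_) h1
  rw [finrank_range_phi8 G hD k h n, (phi G hD k s n).finrank_eq]

omit [CompactSpace M] in
/-- the bars are stable as soon as the stable cohomology is spanned by one compatible family in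
each degree (the fields `res_g`, `span` of `XOut`) -/
theorem HU_stable_of_span8 {k : Type} [Field k] {B : ℝ} (g : ∀ (q : ℕ) (t : ℝ), HU k (XL M t) q)
    (res_g : ∀ q s t (h : s ≤ t), hres k (XL_mono h) q (g q t) = g q s)
    (span : ∀ q t, 0 ≤ t → ∀ (h : XL M t ⊆ XL M (t + B)) (z : HU k (XL M (t + B)) q),
      ∃ c : k, hres k h q z = c • g q t) (s t : ℝ) (hs : 0 < s) (h : s ≤ s + B) (h' : s + B ≤ t)
    (n : ℕ) : LinearMap.range (hres k (XL_mono h : XL M s ⊆ XL M (s + B)) n) ≤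
      LinearMap.range (hres k (XL_mono (h.trans h') : XL M s ⊆ XL M t) n) := by
  rintro _ ⟨z, rfl⟩
  obtain ⟨c, hc⟩ := span n s hs.le (XL_mono h) z
  exact ⟨c • g n t, by rw [map_smul, res_g n s t (h.trans h'), hc]⟩

end

end Vale.Agent.P216.B609
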